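import Vale.Agent.P235.H273.GlueMain
import Vale.Agent.P235.H606.PDefs

/-!
P235 (helper273 for helper606), row GLUES: local maps at the vertices of a set `S` glue to one map
which serves the vertices of `S`.
-/

set_option autoImplicit false

namespace Vale.Agent.P235.H273

open Finset Vale.Agent.P235

/-- gluing along one partition, only the clusters which meet `S` have local maps -/
theorem glueOneS {V : Type} [Finite V] {d : V → V → ℝ} (hd : IsMet d) {c : V → V} {S : Set V}
    {t R C : ℝ} (ht : 0 < t) (hR : 0 < R) (hC : 0 < C)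
    (hc : ∀ x y, c x = c y → d x y ≤ R / 8)
    (hF : ∀ a, ∃ F : V → V → ℝ, IsL1 F ∧ ∀ x y, c x = a → c y = a →
      F x y ≤ d x y ∧ ((∃ z ∈ S, c z = a) → d x y ≤ C * F x y)) :
    ∃ E : V → V → ℝ, IsL1 E ∧ (∀ x y, E x y ≤ (1 + 9 / 4 * (R / t)) * d x y) ∧
      ∀ x ∈ S, ∀ y, (∀ z, d x z ≤ t → c x = c z) → (∀ z, d y z ≤ t → c y = c z) →
        (c x = c y → d x y ≤ C * E x y) ∧ (c x ≠ c y → 2 * R ≤ E x y) := by
  classical
  have := Fintype.ofFinite V
  have hd0 : ∀ x y, 0 ≤ d x y := by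
    intro x y
    rcases eq_or_ne x y with rfl | hxy
    · rw [hd.self]
    · exact (hd.pos x y hxy).le
  -- representatives
  let rep : V → V := fun a => if h : ∃ v, c v = a then h.choose else a
  have hrep : ∀ x, c (rep (c x)) = c x := by
    intro x
    have h : ∃ v, c v = c x := ⟨x, rfl⟩
    show c (if h : ∃ v, c v = c x then h.choose else c x) = c x
    rw [dif_pos h]
    exact h.choose_spec
  choose F hF1 hF2 using hF
  choose ι hι w cc hw hFc using hF1
  let b : ∀ a : V, ι a → V → ℝ := fun a i x =>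
    if cc a i x = cc a i (rep a) then 0 else 1
  let hh : V → V → ℝ := fun a x => if c x = a then pad d c t x else 0
  let B : V → V → V → ℝ := fun a x y =>
    (∑ i, w a i * |hh a x * b a i x - hh a y * b a i y|) + R * |hh a x - hh a y|
  have hB1 : ∀ a, IsL1 (B a) := fun a => block (w a) (hw a) (b a) (hh a) hR.le
  have hb0 : ∀ a i x, 0 ≤ b a i x := by
    intro a i x
    show (0 : ℝ) ≤ if cc a i x = cc a i (rep a) then 0 else 1
    split_ifs <;> norm_num
  have hbF : ∀ a x, ∑ i, w a i * b a i x = F a x (rep a) := by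
    intro a x
    rw [hFc]
  have hbb : ∀ a i x y, |b a i x - b a i y| = if cc a i x = cc a i y then 0 else 1 := by
    intro a i x y
    show |(if cc a i x = cc a i (rep a) then (0 : ℝ) else 1) -
      (if cc a i y = cc a i (rep a) then (0 : ℝ) else 1)| = _
    cases cc a i x <;> cases cc a i y <;> cases cc a i (rep a) <;> norm_num
  have hbbF : ∀ a x y, ∑ i, w a i * |b a i x - b a i y| = F a x y := by
    intro a x y
    rw [hFc]
    exact Finset.sum_congr rfl fun i _ => by rw [hbb]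
  have hnear : ∀ x, d (rep (c x)) x ≤ R / 8 := fun x => hc _ _ (hrep x)
  have hp0 : ∀ x, 0 ≤ pad d c t x := fun x => pad_nonneg hd0 ht x
  have hp1 : ∀ x, pad d c t x ≤ 1 := fun x => pad_le_one x
  -- one end outside the cluster
  have hout : ∀ x y, c x ≠ c y → B (c x) x y = pad d c t x * (F (c x) x (rep (c x)) + R) := by
    intro x y hxy
    have e1 : hh (c x) x = pad d c t x := if_pos rfl
    have e2 : hh (c x) y = 0 := if_neg (Ne.symm hxy)
    show (∑ i, w (c x) i * |hh (c x) x * b (c x) i x - hh (c x) y * b (c x) i y|) +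
      R * |hh (c x) x - hh (c x) y| = _
    rw [e1, e2, ← hbF (c x) x, sub_zero, abs_of_nonneg (hp0 x), mul_add, Finset.mul_sum,
      mul_comm R]
    congr 1
    refine Finset.sum_congr rfl fun i _ => ?_
    rw [zero_mul, sub_zero, abs_of_nonneg (mul_nonneg (hp0 x) (hb0 _ _ _))]
    ring
  have hFr0 : ∀ x, 0 ≤ F (c x) x (rep (c x)) := by
    intro x
    rw [← hbF (c x) x]
    exact Finset.sum_nonneg fun i _ => mul_nonneg (hw _ _) (hb0 _ _ _)
  have hFr1 : ∀ x, F (c x) x (rep (c x)) ≤ R / 8 := by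
    intro x
    have h1 := (hF2 (c x) x (rep (c x)) rfl (hrep x)).1
    have h2 := hnear x
    rw [hd.symm] at h2
    exact h1.trans h2
  have hup : ∀ x y, c x ≠ c y → B (c x) x y ≤ 9 / 8 * (R / t) * d x y := by
    intro x y hxy
    rw [hout x y hxy]
    have h1 := pad_le (d := d) (t := t) x y hxy
    have h2 : pad d c t x * (F (c x) x (rep (c x)) + R) ≤ d x y / t * (R / 8 + R) :=
      mul_le_mul h1 (by linarith [hFr1 x]) (by linarith [hFr0 x]) (div_nonneg (hd0 x y) ht.le)
    have h3 : d x y / t * (R / 8 + R) = 9 / 8 * (R / t) * d x y := by ring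
    linarith
  have hzero : ∀ a x y, c x ≠ a → c y ≠ a → B a x y = 0 := by
    intro a x y hx hy
    have e1 : hh a x = 0 := if_neg hx
    have e2 : hh a y = 0 := if_neg hy
    show (∑ i, w a i * |hh a x * b a i x - hh a y * b a i y|) + R * |hh a x - hh a y| = 0
    rw [e1, e2]
    simp
  have hB0 : ∀ a x y, 0 ≤ B a x y := fun a x y => (hB1 a).nonneg x y
  have hq0 : 0 ≤ R / t := by positivity
  refine ⟨fun x y => ∑ a, B a x y, IsL1.sum univ B fun a _ => hB1 a, fun x y => ?_,
    fun x hxS y hx hy => ⟨fun hxy => ?_, fun hxy => ?_⟩⟩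
  · show ∑ a, B a x y ≤ _
    have hdxy := hd0 x y
    by_cases hxy : c x = c y
    · have e0 : ∑ a, B a x y = B (c x) x y :=
        Finset.sum_eq_single (c x) (fun a _ ha => hzero a x y (Ne.symm ha)
          (by rw [← hxy]; exact Ne.symm ha)) fun h => absurd (mem_univ _) h
      rw [e0]
      have e1 : hh (c x) x = pad d c t x := if_pos rfl
      have e2 : hh (c x) y = pad d c t y := if_pos hxy.symm
      show (∑ i, w (c x) i * |hh (c x) x * b (c x) i x - hh (c x) y * b (c x) i y|) +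
        R * |hh (c x) x - hh (c x) y| ≤ _
      rw [e1, e2]
      have h1 := pad_lip (c := c) hd.tri hd0 ht hxy
      have h2 := pad_lip (c := c) hd.tri hd0 ht hxy.symm
      rw [hd.symm y x] at h2
      have h3 : |pad d c t x - pad d c t y| ≤ d x y / t := abs_le.2 ⟨by linarith, by linarith⟩
      have h4 : ∑ i, w (c x) i * |pad d c t x * b (c x) i x - pad d c t y * b (c x) i y| ≤
          |pad d c t x - pad d c t y| * F (c x) x (rep (c x)) + F (c x) x y := by
        rw [← hbF (c x) x, ← hbbF (c x) x y, Finset.mul_sum, ← Finset.sum_add_distrib]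
        refine Finset.sum_le_sum fun i _ => ?_
        have e3 : pad d c t x * b (c x) i x - pad d c t y * b (c x) i y =
            (pad d c t x - pad d c t y) * b (c x) i x +
              pad d c t y * (b (c x) i x - b (c x) i y) := by ring
        have h5 : |pad d c t x * b (c x) i x - pad d c t y * b (c x) i y| ≤
            |pad d c t x - pad d c t y| * b (c x) i x + |b (c x) i x - b (c x) i y| := by
          rw [e3]
          refine (abs_add_le _ _).trans ?_
          rw [abs_mul, abs_mul, abs_of_nonneg (hb0 _ _ _), abs_of_nonneg (hp0 y)]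
          have h6 := mul_le_mul_of_nonneg_right (hp1 y) (abs_nonneg (b (c x) i x - b (c x) i y))
          linarith
        calc _ ≤ w (c x) i *
              (|pad d c t x - pad d c t y| * b (c x) i x + |b (c x) i x - b (c x) i y|) :=
              mul_le_mul_of_nonneg_left h5 (hw _ _)
          _ = _ := by ring
      have h7 : F (c x) x y ≤ d x y := (hF2 (c x) x y rfl hxy.symm).1
      have h8 : |pad d c t x - pad d c t y| * F (c x) x (rep (c x)) ≤ d x y / t * (R / 8) :=
        mul_le_mul h3 (hFr1 x) (hFr0 x) (div_nonneg hdxy ht.le)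
      have h9 : R * |pad d c t x - pad d c t y| ≤ R * (d x y / t) :=
        mul_le_mul_of_nonneg_left h3 hR.le
      have h10 : d x y / t * (R / 8) + R * (d x y / t) = 9 / 8 * (R / t) * d x y := by ring
      have h11 : 0 ≤ R / t * d x y := mul_nonneg hq0 hdxy
      have h12 : (1 + 9 / 4 * (R / t)) * d x y = d x y + 9 / 4 * (R / t * d x y) := by ring
      have h13 : 9 / 8 * (R / t) * d x y = 9 / 8 * (R / t * d x y) := by ring
      linarith
    · have e0 : ∑ a, B a x y = B (c x) x y + B (c y) x y := by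
        rw [← Finset.sum_pair (f := fun a => B a x y) hxy]
        symm
        refine Finset.sum_subset (subset_univ _) fun a _ ha => hzero a x y ?_ ?_
        · rintro rfl
          exact ha (by simp)
        · rintro rfl
          exact ha (by simp)
      rw [e0, (hB1 (c y)).symm x y]
      have h1 := hup x y hxy
      have h2 := hup y x (Ne.symm hxy)
      rw [hd.symm y x] at h2
      have h12 : (1 + 9 / 4 * (R / t)) * d x y = d x y + 9 / 4 * (R / t * d x y) := by ring
      have h13 : 9 / 8 * (R / t) * d x y = 9 / 8 * (R / t * d x y) := by ring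
      linarith
  · show d x y ≤ C * ∑ a, B a x y
    have h1 : B (c x) x y ≤ ∑ a, B a x y :=
      Finset.single_le_sum (f := fun a => B a x y) (fun a _ => hB0 a x y) (mem_univ _)
    have e1 : hh (c x) x = 1 := (if_pos rfl).trans (pad_eq_one ht hx)
    have e2 : hh (c x) y = 1 := (if_pos hxy.symm).trans (pad_eq_one ht hy)
    have h2 : B (c x) x y = F (c x) x y := by
      show (∑ i, w (c x) i * |hh (c x) x * b (c x) i x - hh (c x) y * b (c x) i y|) +
        R * |hh (c x) x - hh (c x) y| = _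
      rw [e1, e2, ← hbbF (c x) x y]
      simp
    have h3 : d x y ≤ C * F (c x) x y := (hF2 (c x) x y rfl hxy.symm).2 ⟨x, hxS, rfl⟩
    rw [← h2] at h3
    exact h3.trans (mul_le_mul_of_nonneg_left h1 hC.le)
  · show 2 * R ≤ ∑ a, B a x y
    have h1 : B (c x) x y + B (c y) x y ≤ ∑ a, B a x y := by
      rw [← Finset.sum_pair (f := fun a => B a x y) hxy]
      exact Finset.sum_le_sum_of_subset_of_nonneg (subset_univ _) fun a _ _ => hB0 a x y
    have h2 := hout x y hxy
    have h3 := hout y x (Ne.symm hxy)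
    rw [pad_eq_one ht hx, one_mul] at h2
    rw [pad_eq_one ht hy, one_mul, (hB1 (c y)).symm y x] at h3
    linarith [hFr0 x, hFr0 y]

open Classical in
/-- gluing along a random partition, with local maps at the vertices of `S` only -/
theorem glueAvgS {V : Type} [Finite V] {d : V → V → ℝ} (hd : IsMet d) {Ω : Type} [Fintype Ω]
    [Nonempty Ω] {c : Ω → V → V} {S : Set V} {t R C : ℝ} (ht : 0 < t) (hR : 0 < R) (hC : 1 ≤ C)
    (hc1 : ∀ ω x y, c ω x = c ω y → d x y ≤ R / 8)
    (hc2 : ∀ x, 4 * ({ω | ∃ y, d x y ≤ t ∧ c ω x ≠ c ω y}.ncard : ℝ) ≤ Fintype.card Ω)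
    (hF : ∀ v ∈ S, ∃ F : V → V → ℝ, IsL1 F ∧ ∀ x y, d v x ≤ R / 8 → d v y ≤ R / 8 →
      F x y ≤ d x y ∧ d x y ≤ C * F x y) :
    ∃ E : V → V → ℝ, IsL1 E ∧ (∀ x y, E x y ≤ (1 + 9 / 4 * (R / t)) * d x y) ∧
      ∀ x ∈ S, ∀ y, min (d x y) R ≤ 2 * C * E x y := by
  have hC0 : 0 < C := by linarith
  obtain ⟨κ, hκ⟩ : ∃ κ : ℝ, κ = Fintype.card Ω := ⟨_, rfl⟩
  have hκ0 : 0 < κ := by
    rw [hκ]
    exact_mod_cast Fintype.card_pos
  have hd0' : ∀ x y, 0 ≤ d x y := by
    intro x y
    rcases eq_or_ne x y with rfl | hxy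
    · rw [hd.self]
    · exact (hd.pos x y hxy).le
  have hF' : ∀ (ω : Ω) (a : V), ∃ F : V → V → ℝ, IsL1 F ∧ ∀ x y, c ω x = a → c ω y = a →
      F x y ≤ d x y ∧ ((∃ z ∈ S, c ω z = a) → d x y ≤ C * F x y) := by
    intro ω a
    by_cases h : ∃ z ∈ S, c ω z = a
    · obtain ⟨z, hz, hza⟩ := h
      obtain ⟨F, hF1, hF2⟩ := hF z hz
      refine ⟨F, hF1, fun x y hx hy => ?_⟩
      have h1 := hF2 x y (hc1 ω z x (hza.trans hx.symm)) (hc1 ω z y (hza.trans hy.symm))
      exact ⟨h1.1, fun _ => h1.2⟩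
    · exact ⟨fun _ _ => 0, IsL1.zero, fun x y _ _ => ⟨hd0' x y, fun h' => absurd h' h⟩⟩
  choose E hE1 hE2 hE3 using fun ω => glueOneS hd ht hR hC0 (hc1 ω) (hF' ω)
  refine ⟨fun x y => 1 / κ * ∑ ω, E ω x y, (IsL1.sum univ E fun ω _ => hE1 ω).smul (by positivity),
    fun x y => ?_, fun x hxS y => ?_⟩
  · show 1 / κ * ∑ ω, E ω x y ≤ _
    have h1 : ∑ ω, E ω x y ≤ ∑ _ω : Ω, (1 + 9 / 4 * (R / t)) * d x y :=
      Finset.sum_le_sum fun ω _ => hE2 ω x y
    rw [Finset.sum_const, Finset.card_univ, nsmul_eq_mul, ← hκ] at h1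
    have h2 := mul_le_mul_of_nonneg_left h1 (by positivity : 0 ≤ 1 / κ)
    have h3 : 1 / κ * (κ * ((1 + 9 / 4 * (R / t)) * d x y)) = (1 + 9 / 4 * (R / t)) * d x y := by
      field_simp
    linarith
  · show min (d x y) R ≤ 2 * C * (1 / κ * ∑ ω, E ω x y)
    let bad : V → Finset Ω := fun x => univ.filter fun ω => ∃ y, d x y ≤ t ∧ c ω x ≠ c ω y
    have hbad : ∀ x, 4 * ((bad x).card : ℝ) ≤ κ := by
      intro x
      have h1 : {ω | ∃ y, d x y ≤ t ∧ c ω x ≠ c ω y} = (bad x : Set Ω) := by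
        ext ω
        simp [bad]
      have h2 := hc2 x
      rw [h1, Set.ncard_coe_finset, ← hκ] at h2
      exact h2
    have hm : ∀ ω ∈ univ \ (bad x ∪ bad y), min (d x y) R ≤ C * E ω x y := by
      intro ω hω
      rw [mem_sdiff, mem_union, not_or] at hω
      have hx : ∀ z, d x z ≤ t → c ω x = c ω z := by
        intro z hz
        by_contra h
        exact hω.2.1 (by simp only [bad, mem_filter, mem_univ, true_and]; exact ⟨z, hz, h⟩)
      have hy : ∀ z, d y z ≤ t → c ω y = c ω z := by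
        intro z hz
        by_contra h
        exact hω.2.2 (by simp only [bad, mem_filter, mem_univ, true_and]; exact ⟨z, hz, h⟩)
      by_cases hxy : c ω x = c ω y
      · exact (min_le_left _ _).trans ((hE3 ω x hxS y hx hy).1 hxy)
      · have h1 := (hE3 ω x hxS y hx hy).2 hxy
        have h0 : 0 ≤ E ω x y := (hE1 ω).nonneg x y
        have h2 := mul_le_mul_of_nonneg_right hC h0
        exact (min_le_right _ _).trans (by linarith)
    have hd0 : 0 ≤ d x y := by
      rcases eq_or_ne x y with rfl | hxy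
      · rw [hd.self]
      · exact (hd.pos x y hxy).le
    have hm0 : 0 ≤ min (d x y) R := le_min hd0 hR.le
    have h1 : ((univ \ (bad x ∪ bad y)).card : ℝ) * min (d x y) R ≤ C * ∑ ω, E ω x y := by
      rw [← nsmul_eq_mul, ← Finset.sum_const, Finset.mul_sum]
      refine (Finset.sum_le_sum hm).trans ?_
      exact Finset.sum_le_sum_of_subset_of_nonneg (subset_univ _) fun ω _ _ =>
        mul_nonneg hC0.le ((hE1 ω).nonneg x y)
    have h2 : κ / 2 ≤ ((univ \ (bad x ∪ bad y)).card : ℝ) := by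
      have h3 : (univ \ (bad x ∪ bad y)).card + (bad x ∪ bad y).card = Fintype.card Ω := by
        rw [Finset.card_sdiff_add_card_eq_card (subset_univ _), Finset.card_univ]
      have h4 := Finset.card_union_le (bad x) (bad y)
      have h5 : ((univ \ (bad x ∪ bad y)).card : ℝ) + ((bad x ∪ bad y).card : ℝ) = κ := by
        rw [hκ]
        exact_mod_cast h3
      have h6 : ((bad x ∪ bad y).card : ℝ) ≤ (bad x).card + (bad y).card := by
        exact_mod_cast h4
      linarith [hbad x, hbad y]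
    have h3 := mul_le_mul_of_nonneg_right h2 hm0
    have h4 : min (d x y) R = 2 / κ * (κ / 2 * min (d x y) R) := by field_simp
    rw [h4]
    have h5 := mul_le_mul_of_nonneg_left (h3.trans h1) (by positivity : 0 ≤ 2 / κ)
    have h6 : 2 / κ * (C * ∑ ω, E ω x y) = 2 * C * (1 / κ * ∑ ω, E ω x y) := by ring
    linarith

/-- (GLUES) local maps at the vertices of `S` glue to one map which serves the vertices of `S` -/
theorem glueSStmt : H606.GlueSStmt := by
  intro V _ G ℓ r R C S hc hM hℓ hR hC hF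
  have hC0 : 0 < C := by linarith
  have hd := pathDist_isMet hc hℓ
  have hd0 : ∀ x y, 0 ≤ pathDist G ℓ x y := pathDist_nonneg hℓ
  have hr0 : (0 : ℝ) ≤ r := by positivity
  obtain ⟨q, hq⟩ : ∃ q : ℝ, q = (r : ℝ) + 2 := ⟨_, rfl⟩
  have hq2 : 2 ≤ q := by rw [hq]; linarith
  have hq0 : 0 < q := by linarith
  have hN0 : 0 < 8 * (r + 2) := by omega
  have : Nonempty (Fin (8 * (r + 2))) := ⟨⟨0, hN0⟩⟩
  have hΔ : 0 < R / (64 * q ^ 2) := by positivity
  obtain ⟨c, hc1, hc2⟩ := rowPadK' V G ℓ r hc hM hℓ (R / (64 * q ^ 2)) (8 * (r + 2)) hΔ hN0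
  rw [← hq] at hc1 hc2
  have ht : 0 < R / (1024 * q ^ 3) := by positivity
  have hc1' : ∀ ω x y, c ω x = c ω y → pathDist G ℓ x y ≤ R / 8 := by
    intro ω x y h
    have h1 := hc1 ω x y h
    have h2 : 8 * q ^ 2 * (R / (64 * q ^ 2)) = R / 8 := by
      field_simp
      norm_num
    rwa [h2] at h1
  have hc2' : ∀ x, 4 * ({ω | ∃ y, pathDist G ℓ x y ≤ R / (1024 * q ^ 3) ∧
      c ω x ≠ c ω y}.ncard : ℝ) ≤ Fintype.card (Fin (r + 2) → Fin (8 * (r + 2))) := by
    intro x
    have h1 := hc2 x (R / (1024 * q ^ 3)) ht.le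
    have h2 : (Fintype.card (Fin (r + 2) → Fin (8 * (r + 2))) : ℝ) =
        (((8 * (r + 2) : ℕ)) : ℝ) ^ (r + 2) := by
      rw [Fintype.card_pi]
      simp
    rw [h2]
    have h3 : q * (((8 * (r + 2) : ℕ)) : ℝ) ^ (r + 2) *
        (2 * (R / (1024 * q ^ 3)) / (R / (64 * q ^ 2)) + 1 / (((8 * (r + 2) : ℕ)) : ℝ)) =
        (((8 * (r + 2) : ℕ)) : ℝ) ^ (r + 2) / 4 := by
      have h5 : (((8 * (r + 2) : ℕ)) : ℝ) = 8 * q := by
        rw [hq]
        push_cast
        ring
      have h4 : 2 * (R / (1024 * q ^ 3)) / (R / (64 * q ^ 2)) + 1 / (8 * q) = 1 / (4 * q) := by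
        field_simp
        norm_num
      rw [h5, h4]
      field_simp
    linarith
  have hF' : ∀ v ∈ S, ∃ F : V → V → ℝ, IsL1 F ∧ ∀ x y, pathDist G ℓ v x ≤ R / 8 →
      pathDist G ℓ v y ≤ R / 8 → F x y ≤ pathDist G ℓ x y ∧ pathDist G ℓ x y ≤ C * F x y := by
    intro v hv
    obtain ⟨ρ, hρ, h⟩ := hF v hv
    refine ⟨fun x y => 1 / C * ρ x y, hρ.smul (by positivity), fun x y hx hy => ?_⟩
    obtain ⟨h1, h2⟩ := h x y hx hy
    constructor
    · have h3 := mul_le_mul_of_nonneg_left h2 (by positivity : 0 ≤ 1 / C)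
      have h4 : 1 / C * (C * pathDist G ℓ x y) = pathDist G ℓ x y := by field_simp
      show 1 / C * ρ x y ≤ _
      linarith
    · have h4 : C * (1 / C * ρ x y) = ρ x y := by field_simp
      show _ ≤ C * (1 / C * ρ x y)
      linarith
  obtain ⟨E, hE1, hE2, hE3⟩ := glueAvgS hd ht hR hC hc1' hc2' hF'
  have hL : 1 + 9 / 4 * (R / (R / (1024 * q ^ 3))) ≤ 2305 * q ^ 3 := by
    have h1 : R / (R / (1024 * q ^ 3)) = 1024 * q ^ 3 := by field_simp
    have h2 : 1 ≤ q ^ 3 := one_le_pow₀ (by linarith)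
    rw [h1]
    linarith
  refine ⟨fun x y => 2 * C * E x y, hE1.smul (by positivity), fun x y => ?_, hE3⟩
  show 2 * C * E x y ≤ 10000 * ((r : ℝ) + 2) ^ 3 * C * pathDist G ℓ x y
  rw [← hq]
  have h1 := (hE2 x y).trans (mul_le_mul_of_nonneg_right hL (hd0 x y))
  have h2 := mul_le_mul_of_nonneg_left h1 (by positivity : 0 ≤ 2 * C)
  have h3 : 0 ≤ q ^ 3 * C * pathDist G ℓ x y := mul_nonneg (by positivity) (hd0 x y)
  nlinarith

end Vale.Agent.P235.H273
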