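import Vale.Agent.P235.H273.Glue
import Vale.Agent.P235.H606.UDefs
import Vale.Agent.P235.R2.H934.KrK2
import Vale.Agent.P235.R2.H341.K1
import Vale.Agent.P235.R2.H680.RowPot
import Vale.Agent.P235.R2.H907.RowCount

/-!
P235 (helper273 for helper606), row GLUE.
-/

set_option autoImplicit false

namespace Vale.Agent.P235.H273

open Vale.Agent.P235 Vale.Agent.P235.Kr

theorem rowPadK' : RowPadK :=
  R2.H907.KprPadK.rowPadK Kpr.rowPot Kpr.rowCount (Kr.rowK2 Kr.rowK1)

/-- (GLUE) local maps glue: one map with slope at least one up to distance `R` -/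
theorem glueStmt : H606.GlueStmt := by
  intro V _ G ℓ r R C hc hM hℓ hR hC hF
  have hC0 : 0 < C := by linarith
  have hd0 : ∀ x y, 0 ≤ pathDist G ℓ x y := pathDist_nonneg hℓ
  obtain ⟨E, hE1, hE2, hE3⟩ := glue rowPadK' hc hM hℓ hR hC (fun v => by
    obtain ⟨ρ, hρ, h⟩ := hF v
    refine ⟨fun x y => 1 / C * ρ x y, hρ.smul (by positivity), fun x y hx hy => ?_⟩
    obtain ⟨h1, h2⟩ := h x y hx hy
    constructor
    · have h3 := mul_le_mul_of_nonneg_left h2 (by positivity : 0 ≤ 1 / C)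
      have h4 : 1 / C * (C * pathDist G ℓ x y) = pathDist G ℓ x y := by field_simp
      show 1 / C * ρ x y ≤ _
      linarith
    · have h4 : C * (1 / C * ρ x y) = ρ x y := by field_simp
      show _ ≤ C * (1 / C * ρ x y)
      linarith)
  have hr0 : (0 : ℝ) ≤ r := by positivity
  have hk : 0 ≤ ((r : ℝ) + 2) ^ 3 * C := by positivity
  refine ⟨fun x y => 4610 * ((r : ℝ) + 2) ^ 3 * C * E x y, hE1.smul (by positivity),
    fun x y => ?_, hE3⟩
  show 4610 * ((r : ℝ) + 2) ^ 3 * C * E x y ≤ _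
  have h1 := mul_le_mul_of_nonneg_left (hE2 x y) hk
  have h2 := mul_nonneg hk (hd0 x y)
  nlinarith

end Vale.Agent.P235.H273
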