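import Vale.Agent.P235.H273.GlueMet
import Vale.Agent.P235.R2.H907.PadK

/-!
P235 (helper273 for helper606), row GLUE: in a connected graph without a `K_r` minor, embeddings of
all balls of radius `R / 8` give one `L₁` function which is good up to scale `R`.
-/

set_option autoImplicit false

namespace Vale.Agent.P235.H273

open Vale.Agent.P235 Vale.Agent.P235.Kr

/-- GLUE: local `L₁` functions at scale `R` give a global one, in graphs without `K_r` minor -/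
theorem glue (hP : RowPadK) {V : Type} [Finite V] {G : SimpleGraph V} {ℓ : Sym2 V → ℝ} {r : ℕ}
    (hc : G.Connected) (hM : NoK r G) (hℓ : ∀ e ∈ G.edgeSet, 0 < ℓ e) {R C : ℝ}
    (hR : 0 < R) (hC : 1 ≤ C)
    (hF : ∀ v, ∃ F : V → V → ℝ, IsL1 F ∧
      ∀ x y, pathDist G ℓ v x ≤ R / 8 → pathDist G ℓ v y ≤ R / 8 →
        F x y ≤ pathDist G ℓ x y ∧ pathDist G ℓ x y ≤ C * F x y) :
    ∃ E : V → V → ℝ, IsL1 E ∧ (∀ x y, E x y ≤ pathDist G ℓ x y) ∧
      ∀ x y, min (pathDist G ℓ x y) R ≤ 4610 * ((r : ℝ) + 2) ^ 3 * C * E x y := by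
  have hd := pathDist_isMet hc hℓ
  have hd0 : ∀ x y, 0 ≤ pathDist G ℓ x y := pathDist_nonneg hℓ
  have hr0 : (0 : ℝ) ≤ r := by positivity
  obtain ⟨q, hq⟩ : ∃ q : ℝ, q = (r : ℝ) + 2 := ⟨_, rfl⟩
  have hq2 : 2 ≤ q := by rw [hq]; linarith
  have hq0 : 0 < q := by linarith
  have hN0 : 0 < 8 * (r + 2) := by omega
  have : Nonempty (Fin (8 * (r + 2))) := ⟨⟨0, hN0⟩⟩
  have hΔ : 0 < R / (64 * q ^ 2) := by positivity
  obtain ⟨c, hc1, hc2⟩ := hP V G ℓ r hc hM hℓ (R / (64 * q ^ 2)) (8 * (r + 2)) hΔ hN0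
  rw [← hq] at hc1 hc2
  have ht : 0 < R / (1024 * q ^ 3) := by positivity
  have hc1' : ∀ ω x y, c ω x = c ω y → pathDist G ℓ x y ≤ R / 8 := by
    intro ω x y h
    have h1 := hc1 ω x y h
    have h2 : 8 * q ^ 2 * (R / (64 * q ^ 2)) = R / 8 := by
      field_simp
      norm_num
    rwa [h2] at h1
  have hc2' : ∀ x, 4 * ({ω | ∃ y, pathDist G ℓ x y ≤ R / (1024 * q ^ 3) ∧
      c ω x ≠ c ω y}.ncard : ℝ) ≤ Fintype.card (Fin (r + 2) → Fin (8 * (r + 2))) := by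
    intro x
    have h1 := hc2 x (R / (1024 * q ^ 3)) ht.le
    have h2 : (Fintype.card (Fin (r + 2) → Fin (8 * (r + 2))) : ℝ) =
        (((8 * (r + 2) : ℕ)) : ℝ) ^ (r + 2) := by
      rw [Fintype.card_pi]
      simp
    rw [h2]
    have h3 : q * (((8 * (r + 2) : ℕ)) : ℝ) ^ (r + 2) *
        (2 * (R / (1024 * q ^ 3)) / (R / (64 * q ^ 2)) + 1 / (((8 * (r + 2) : ℕ)) : ℝ)) =
        (((8 * (r + 2) : ℕ)) : ℝ) ^ (r + 2) / 4 := by
      have h5 : (((8 * (r + 2) : ℕ)) : ℝ) = 8 * q := by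
        rw [hq]
        push_cast
        ring
      have h4 : 2 * (R / (1024 * q ^ 3)) / (R / (64 * q ^ 2)) + 1 / (8 * q) = 1 / (4 * q) := by
        field_simp
        norm_num
      rw [h5, h4]
      field_simp
    linarith
  obtain ⟨E, hE1, hE2, hE3⟩ := glueAvg hd ht hR hC hc1' hc2' hF
  have hL : 1 + 9 / 4 * (R / (R / (1024 * q ^ 3))) ≤ 2305 * q ^ 3 := by
    have h1 : R / (R / (1024 * q ^ 3)) = 1024 * q ^ 3 := by field_simp
    have h2 : 1 ≤ q ^ 3 := one_le_pow₀ (by linarith)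
    rw [h1]
    linarith
  refine ⟨fun x y => 1 / (2305 * q ^ 3) * E x y, hE1.smul (by positivity), fun x y => ?_,
    fun x y => ?_⟩
  · show 1 / (2305 * q ^ 3) * E x y ≤ _
    have h1 := (hE2 x y).trans (mul_le_mul_of_nonneg_right hL (hd0 x y))
    have h2 := mul_le_mul_of_nonneg_left h1 (by positivity : 0 ≤ 1 / (2305 * q ^ 3))
    have h3 : 1 / (2305 * q ^ 3) * (2305 * q ^ 3 * pathDist G ℓ x y) = pathDist G ℓ x y := by
      field_simp
    linarith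
  · show _ ≤ 4610 * ((r : ℝ) + 2) ^ 3 * C * (1 / (2305 * q ^ 3) * E x y)
    rw [← hq]
    have h1 : 4610 * q ^ 3 * C * (1 / (2305 * q ^ 3) * E x y) = 2 * C * E x y := by
      field_simp
      ring
    rw [h1]
    exact hE3 x y

end Vale.Agent.P235.H273
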