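import Vale.Agent.P235.Comp.Core

/-!
P235 (helper273 for helper606), row GLUE: local `L₁` functions at scale `R` are glued along a
partition into clusters of diameter at most `R / 8`.
-/

set_option autoImplicit false

namespace Vale.Agent.P235.H273

open Finset Vale.Agent.P235

section

variable {V : Type} [Finite V] [DecidableEq V] (d : V → V → ℝ) (c : V → V) (t : ℝ)

/-- truncated distance to the other clusters -/
noncomputable def cut1 (x y : V) : ℝ := if c y = c x then 1 else min 1 (d x y / t)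

/-- truncated distance to the complement of the cluster -/
noncomputable def pad (x : V) : ℝ := ⨅ y, cut1 d c t x y

variable {d c t}

omit [Finite V] in
theorem cut1_nonneg (hd : ∀ x y, 0 ≤ d x y) (ht : 0 < t) (x y : V) : 0 ≤ cut1 d c t x y := by
  unfold cut1
  have := hd x y
  split_ifs
  · exact zero_le_one
  · positivity

theorem bdd (x : V) : BddBelow (Set.range fun y => cut1 d c t x y) :=
  (Set.finite_range _).bddBelow

omit [Finite V] in
theorem pad_nonneg (hd : ∀ x y, 0 ≤ d x y) (ht : 0 < t) (x : V) : 0 ≤ pad d c t x :=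
  Real.iInf_nonneg fun y => cut1_nonneg hd ht x y

theorem pad_le_one (x : V) : pad d c t x ≤ 1 := by
  refine (ciInf_le (bdd x) x).trans ?_
  simp [cut1]

theorem pad_le (x y : V) (h : c x ≠ c y) : pad d c t x ≤ d x y / t := by
  refine (ciInf_le (bdd x) y).trans ?_
  unfold cut1
  rw [if_neg (Ne.symm h)]
  exact min_le_right _ _

theorem pad_lip (htri : ∀ x y z, d x z ≤ d x y + d y z)
    (hd : ∀ x y, 0 ≤ d x y) (ht : 0 < t) {x y : V} (h : c x = c y) :
    pad d c t x ≤ pad d c t y + d x y / t := by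
  have : Nonempty V := ⟨x⟩
  have h1 : pad d c t x - d x y / t ≤ pad d c t y := by
    refine le_ciInf fun z => ?_
    have h2 : pad d c t x ≤ cut1 d c t x z := ciInf_le (bdd x) z
    have h3 : 0 ≤ d x y / t := div_nonneg (hd x y) ht.le
    unfold cut1 at h2 ⊢
    rw [← h]
    by_cases hz : c z = c x
    · rw [if_pos hz] at h2 ⊢
      linarith
    · rw [if_neg hz] at h2 ⊢
      have h4 : d x z / t ≤ d x y / t + d y z / t := by
        rw [← add_div]
        exact div_le_div_of_nonneg_right (htri x y z) ht.le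
      rcases min_cases (1 : ℝ) (d x z / t) with ⟨h5, h6⟩ | ⟨h5, h6⟩ <;>
      rcases min_cases (1 : ℝ) (d y z / t) with ⟨h7, h8⟩ | ⟨h7, h8⟩ <;>
      rw [h5] at h2 <;> rw [h7] <;> linarith
  linarith

theorem pad_eq_one {x : V} (ht : 0 < t) (h : ∀ y, d x y ≤ t → c x = c y) :
    pad d c t x = 1 := by
  have : Nonempty V := ⟨x⟩
  refine le_antisymm (pad_le_one x) (le_ciInf fun y => ?_)
  unfold cut1
  split_ifs with hy
  · exact le_rfl
  · have h1 : t < d x y := by
      by_contra h2
      exact hy (h y (not_lt.1 h2)).symm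
    refine le_min le_rfl ?_
    rw [le_div_iff₀ ht, one_mul]
    exact h1.le

end

/-- one cluster of the glued function -/
theorem block {V : Type} [Finite V] {ι : Type} [Fintype ι] (w : ι → ℝ) (hw : ∀ i, 0 ≤ w i)
    (b : ι → V → ℝ) (h : V → ℝ) {R : ℝ} (hR : 0 ≤ R) :
    IsL1 fun x y => (∑ i, w i * |h x * b i x - h y * b i y|) + R * |h x - h y| := by
  refine IsL1.add ?_ ((isL1_line h).smul hR)
  exact IsL1.sum univ (fun i x y => w i * |h x * b i x - h y * b i y|)
    fun i _ => (isL1_line fun x => h x * b i x).smul (hw i)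

/-- gluing along one partition -/
theorem glueOne {V : Type} [Finite V] {d : V → V → ℝ} (hd : IsMet d) {c : V → V} {t R C : ℝ}
    (ht : 0 < t) (hR : 0 < R) (hC : 0 < C)
    (hc : ∀ x y, c x = c y → d x y ≤ R / 8)
    (hF : ∀ v, ∃ F : V → V → ℝ, IsL1 F ∧ ∀ x y, d v x ≤ R / 8 → d v y ≤ R / 8 →
      F x y ≤ d x y ∧ d x y ≤ C * F x y) :
    ∃ E : V → V → ℝ, IsL1 E ∧ (∀ x y, E x y ≤ (1 + 9 / 4 * (R / t)) * d x y) ∧
      ∀ x y, (∀ z, d x z ≤ t → c x = c z) → (∀ z, d y z ≤ t → c y = c z) →
        (c x = c y → d x y ≤ C * E x y) ∧ (c x ≠ c y → 2 * R ≤ E x y) := by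
  classical
  have := Fintype.ofFinite V
  have hd0 : ∀ x y, 0 ≤ d x y := by
    intro x y
    rcases eq_or_ne x y with rfl | hxy
    · rw [hd.self]
    · exact (hd.pos x y hxy).le
  -- representatives
  let rep : V → V := fun a => if h : ∃ v, c v = a then h.choose else a
  have hrep : ∀ x, c (rep (c x)) = c x := by
    intro x
    have h : ∃ v, c v = c x := ⟨x, rfl⟩
    show c (if h : ∃ v, c v = c x then h.choose else c x) = c x
    rw [dif_pos h]
    exact h.choose_spec
  choose F hF1 hF2 using hF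
  choose ι hι w cc hw hFc using hF1
  let b : ∀ a : V, ι (rep a) → V → ℝ := fun a i x =>
    if cc (rep a) i x = cc (rep a) i (rep a) then 0 else 1
  let hh : V → V → ℝ := fun a x => if c x = a then pad d c t x else 0
  let B : V → V → V → ℝ := fun a x y =>
    (∑ i, w (rep a) i * |hh a x * b a i x - hh a y * b a i y|) + R * |hh a x - hh a y|
  have hB1 : ∀ a, IsL1 (B a) := fun a => block (w (rep a)) (hw (rep a)) (b a) (hh a) hR.le
  have hb0 : ∀ a i x, 0 ≤ b a i x := by
    intro a i x
    show (0 : ℝ) ≤ if cc (rep a) i x = cc (rep a) i (rep a) then 0 else 1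
    split_ifs <;> norm_num
  have hbF : ∀ a x, ∑ i, w (rep a) i * b a i x = F (rep a) x (rep a) := by
    intro a x
    rw [hFc]
  have hbb : ∀ a i x y, |b a i x - b a i y| = if cc (rep a) i x = cc (rep a) i y then 0 else 1 := by
    intro a i x y
    show |(if cc (rep a) i x = cc (rep a) i (rep a) then (0 : ℝ) else 1) -
      (if cc (rep a) i y = cc (rep a) i (rep a) then (0 : ℝ) else 1)| = _
    cases cc (rep a) i x <;> cases cc (rep a) i y <;> cases cc (rep a) i (rep a) <;> norm_num
  have hbbF : ∀ a x y, ∑ i, w (rep a) i * |b a i x - b a i y| = F (rep a) x y := by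
    intro a x y
    rw [hFc]
    exact Finset.sum_congr rfl fun i _ => by rw [hbb]
  have hnear : ∀ x, d (rep (c x)) x ≤ R / 8 := fun x => hc _ _ (hrep x)
  have hp0 : ∀ x, 0 ≤ pad d c t x := fun x => pad_nonneg hd0 ht x
  have hp1 : ∀ x, pad d c t x ≤ 1 := fun x => pad_le_one x
  -- one end outside the cluster
  have hout : ∀ x y, c x ≠ c y → B (c x) x y = pad d c t x * (F (rep (c x)) x (rep (c x)) + R) := by
    intro x y hxy
    have e1 : hh (c x) x = pad d c t x := if_pos rfl
    have e2 : hh (c x) y = 0 := if_neg (Ne.symm hxy)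
    show (∑ i, w (rep (c x)) i * |hh (c x) x * b (c x) i x - hh (c x) y * b (c x) i y|) +
      R * |hh (c x) x - hh (c x) y| = _
    rw [e1, e2, ← hbF (c x) x, sub_zero, abs_of_nonneg (hp0 x), mul_add, Finset.mul_sum,
      mul_comm R]
    congr 1
    refine Finset.sum_congr rfl fun i _ => ?_
    rw [zero_mul, sub_zero, abs_of_nonneg (mul_nonneg (hp0 x) (hb0 _ _ _))]
    ring
  have hFr0 : ∀ x, 0 ≤ F (rep (c x)) x (rep (c x)) := by
    intro x
    rw [← hbF (c x) x]
    exact Finset.sum_nonneg fun i _ => mul_nonneg (hw _ _) (hb0 _ _ _)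
  have hFr1 : ∀ x, F (rep (c x)) x (rep (c x)) ≤ R / 8 := by
    intro x
    have h0 : d (rep (c x)) (rep (c x)) ≤ R / 8 := by
      rw [hd.self]
      positivity
    have h1 := (hF2 (rep (c x)) x (rep (c x)) (hnear x) h0).1
    have h2 := hnear x
    rw [hd.symm] at h2
    exact h1.trans h2
  have hup : ∀ x y, c x ≠ c y → B (c x) x y ≤ 9 / 8 * (R / t) * d x y := by
    intro x y hxy
    rw [hout x y hxy]
    have h1 := pad_le (d := d) (t := t) x y hxy
    have h2 : pad d c t x * (F (rep (c x)) x (rep (c x)) + R) ≤ d x y / t * (R / 8 + R) :=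
      mul_le_mul h1 (by linarith [hFr1 x]) (by linarith [hFr0 x]) (div_nonneg (hd0 x y) ht.le)
    have h3 : d x y / t * (R / 8 + R) = 9 / 8 * (R / t) * d x y := by ring
    linarith
  have hzero : ∀ a x y, c x ≠ a → c y ≠ a → B a x y = 0 := by
    intro a x y hx hy
    have e1 : hh a x = 0 := if_neg hx
    have e2 : hh a y = 0 := if_neg hy
    show (∑ i, w (rep a) i * |hh a x * b a i x - hh a y * b a i y|) + R * |hh a x - hh a y| = 0
    rw [e1, e2]
    simp
  have hB0 : ∀ a x y, 0 ≤ B a x y := fun a x y => (hB1 a).nonneg x y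
  have hq0 : 0 ≤ R / t := by positivity
  refine ⟨fun x y => ∑ a, B a x y, IsL1.sum univ B fun a _ => hB1 a, fun x y => ?_,
    fun x y hx hy => ⟨fun hxy => ?_, fun hxy => ?_⟩⟩
  · show ∑ a, B a x y ≤ _
    have hdxy := hd0 x y
    by_cases hxy : c x = c y
    · have e0 : ∑ a, B a x y = B (c x) x y :=
        Finset.sum_eq_single (c x) (fun a _ ha => hzero a x y (Ne.symm ha)
          (by rw [← hxy]; exact Ne.symm ha)) fun h => absurd (mem_univ _) h
      rw [e0]
      have e1 : hh (c x) x = pad d c t x := if_pos rfl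
      have e2 : hh (c x) y = pad d c t y := if_pos hxy.symm
      show (∑ i, w (rep (c x)) i * |hh (c x) x * b (c x) i x - hh (c x) y * b (c x) i y|) +
        R * |hh (c x) x - hh (c x) y| ≤ _
      rw [e1, e2]
      have h1 := pad_lip (c := c) hd.tri hd0 ht hxy
      have h2 := pad_lip (c := c) hd.tri hd0 ht hxy.symm
      rw [hd.symm y x] at h2
      have h3 : |pad d c t x - pad d c t y| ≤ d x y / t := abs_le.2 ⟨by linarith, by linarith⟩
      have h4 : ∑ i, w (rep (c x)) i * |pad d c t x * b (c x) i x - pad d c t y * b (c x) i y| ≤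
          |pad d c t x - pad d c t y| * F (rep (c x)) x (rep (c x)) + F (rep (c x)) x y := by
        rw [← hbF (c x) x, ← hbbF (c x) x y, Finset.mul_sum, ← Finset.sum_add_distrib]
        refine Finset.sum_le_sum fun i _ => ?_
        have e3 : pad d c t x * b (c x) i x - pad d c t y * b (c x) i y =
            (pad d c t x - pad d c t y) * b (c x) i x +
              pad d c t y * (b (c x) i x - b (c x) i y) := by ring
        have h5 : |pad d c t x * b (c x) i x - pad d c t y * b (c x) i y| ≤
            |pad d c t x - pad d c t y| * b (c x) i x + |b (c x) i x - b (c x) i y| := by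
          rw [e3]
          refine (abs_add_le _ _).trans ?_
          rw [abs_mul, abs_mul, abs_of_nonneg (hb0 _ _ _), abs_of_nonneg (hp0 y)]
          have h6 := mul_le_mul_of_nonneg_right (hp1 y) (abs_nonneg (b (c x) i x - b (c x) i y))
          linarith
        calc _ ≤ w (rep (c x)) i *
              (|pad d c t x - pad d c t y| * b (c x) i x + |b (c x) i x - b (c x) i y|) :=
              mul_le_mul_of_nonneg_left h5 (hw _ _)
          _ = _ := by ring
      have h7 : F (rep (c x)) x y ≤ d x y := by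
        refine (hF2 (rep (c x)) x y (hnear x) ?_).1
        rw [hxy]
        exact hnear y
      have h8 : |pad d c t x - pad d c t y| * F (rep (c x)) x (rep (c x)) ≤ d x y / t * (R / 8) :=
        mul_le_mul h3 (hFr1 x) (hFr0 x) (div_nonneg hdxy ht.le)
      have h9 : R * |pad d c t x - pad d c t y| ≤ R * (d x y / t) :=
        mul_le_mul_of_nonneg_left h3 hR.le
      have h10 : d x y / t * (R / 8) + R * (d x y / t) = 9 / 8 * (R / t) * d x y := by ring
      have h11 : 0 ≤ R / t * d x y := mul_nonneg hq0 hdxy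
      have h12 : (1 + 9 / 4 * (R / t)) * d x y = d x y + 9 / 4 * (R / t * d x y) := by ring
      have h13 : 9 / 8 * (R / t) * d x y = 9 / 8 * (R / t * d x y) := by ring
      linarith
    · have e0 : ∑ a, B a x y = B (c x) x y + B (c y) x y := by
        rw [← Finset.sum_pair (f := fun a => B a x y) hxy]
        symm
        refine Finset.sum_subset (subset_univ _) fun a _ ha => hzero a x y ?_ ?_
        · rintro rfl
          exact ha (by simp)
        · rintro rfl
          exact ha (by simp)
      rw [e0, (hB1 (c y)).symm x y]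
      have h1 := hup x y hxy
      have h2 := hup y x (Ne.symm hxy)
      rw [hd.symm y x] at h2
      have h12 : (1 + 9 / 4 * (R / t)) * d x y = d x y + 9 / 4 * (R / t * d x y) := by ring
      have h13 : 9 / 8 * (R / t) * d x y = 9 / 8 * (R / t * d x y) := by ring
      linarith
  · show d x y ≤ C * ∑ a, B a x y
    have h1 : B (c x) x y ≤ ∑ a, B a x y :=
      Finset.single_le_sum (f := fun a => B a x y) (fun a _ => hB0 a x y) (mem_univ _)
    have e1 : hh (c x) x = 1 := (if_pos rfl).trans (pad_eq_one ht hx)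
    have e2 : hh (c x) y = 1 := (if_pos hxy.symm).trans (pad_eq_one ht hy)
    have h2 : B (c x) x y = F (rep (c x)) x y := by
      show (∑ i, w (rep (c x)) i * |hh (c x) x * b (c x) i x - hh (c x) y * b (c x) i y|) +
        R * |hh (c x) x - hh (c x) y| = _
      rw [e1, e2, ← hbbF (c x) x y]
      simp
    have h3 : d x y ≤ C * F (rep (c x)) x y := by
      refine (hF2 (rep (c x)) x y (hnear x) ?_).2
      rw [hxy]
      exact hnear y
    rw [← h2] at h3
    exact h3.trans (mul_le_mul_of_nonneg_left h1 hC.le)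
  · show 2 * R ≤ ∑ a, B a x y
    have h1 : B (c x) x y + B (c y) x y ≤ ∑ a, B a x y := by
      rw [← Finset.sum_pair (f := fun a => B a x y) hxy]
      exact Finset.sum_le_sum_of_subset_of_nonneg (subset_univ _) fun a _ _ => hB0 a x y
    have h2 := hout x y hxy
    have h3 := hout y x (Ne.symm hxy)
    rw [pad_eq_one ht hx, one_mul] at h2
    rw [pad_eq_one ht hy, one_mul, (hB1 (c y)).symm y x] at h3
    linarith [hFr0 x, hFr0 y]

open Classical in
/-- gluing along a random partition -/
theorem glueAvg {V : Type} [Finite V] {d : V → V → ℝ} (hd : IsMet d) {Ω : Type} [Fintype Ω]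
    [Nonempty Ω] {c : Ω → V → V} {t R C : ℝ} (ht : 0 < t) (hR : 0 < R) (hC : 1 ≤ C)
    (hc1 : ∀ ω x y, c ω x = c ω y → d x y ≤ R / 8)
    (hc2 : ∀ x, 4 * ({ω | ∃ y, d x y ≤ t ∧ c ω x ≠ c ω y}.ncard : ℝ) ≤ Fintype.card Ω)
    (hF : ∀ v, ∃ F : V → V → ℝ, IsL1 F ∧ ∀ x y, d v x ≤ R / 8 → d v y ≤ R / 8 →
      F x y ≤ d x y ∧ d x y ≤ C * F x y) :
    ∃ E : V → V → ℝ, IsL1 E ∧ (∀ x y, E x y ≤ (1 + 9 / 4 * (R / t)) * d x y) ∧
      ∀ x y, min (d x y) R ≤ 2 * C * E x y := by
  have hC0 : 0 < C := by linarith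
  obtain ⟨κ, hκ⟩ : ∃ κ : ℝ, κ = Fintype.card Ω := ⟨_, rfl⟩
  have hκ0 : 0 < κ := by
    rw [hκ]
    exact_mod_cast Fintype.card_pos
  choose E hE1 hE2 hE3 using fun ω => glueOne hd ht hR hC0 (hc1 ω) hF
  refine ⟨fun x y => 1 / κ * ∑ ω, E ω x y, (IsL1.sum univ E fun ω _ => hE1 ω).smul (by positivity),
    fun x y => ?_, fun x y => ?_⟩
  · show 1 / κ * ∑ ω, E ω x y ≤ _
    have h1 : ∑ ω, E ω x y ≤ ∑ _ω : Ω, (1 + 9 / 4 * (R / t)) * d x y :=
      Finset.sum_le_sum fun ω _ => hE2 ω x y
    rw [Finset.sum_const, Finset.card_univ, nsmul_eq_mul, ← hκ] at h1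
    have h2 := mul_le_mul_of_nonneg_left h1 (by positivity : 0 ≤ 1 / κ)
    have h3 : 1 / κ * (κ * ((1 + 9 / 4 * (R / t)) * d x y)) = (1 + 9 / 4 * (R / t)) * d x y := by
      field_simp
    linarith
  · show min (d x y) R ≤ 2 * C * (1 / κ * ∑ ω, E ω x y)
    let bad : V → Finset Ω := fun x => univ.filter fun ω => ∃ y, d x y ≤ t ∧ c ω x ≠ c ω y
    have hbad : ∀ x, 4 * ((bad x).card : ℝ) ≤ κ := by
      intro x
      have h1 : {ω | ∃ y, d x y ≤ t ∧ c ω x ≠ c ω y} = (bad x : Set Ω) := by
        ext ω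
        simp [bad]
      have h2 := hc2 x
      rw [h1, Set.ncard_coe_finset, ← hκ] at h2
      exact h2
    have hm : ∀ ω ∈ univ \ (bad x ∪ bad y), min (d x y) R ≤ C * E ω x y := by
      intro ω hω
      rw [mem_sdiff, mem_union, not_or] at hω
      have hx : ∀ z, d x z ≤ t → c ω x = c ω z := by
        intro z hz
        by_contra h
        exact hω.2.1 (by simp only [bad, mem_filter, mem_univ, true_and]; exact ⟨z, hz, h⟩)
      have hy : ∀ z, d y z ≤ t → c ω y = c ω z := by
        intro z hz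
        by_contra h
        exact hω.2.2 (by simp only [bad, mem_filter, mem_univ, true_and]; exact ⟨z, hz, h⟩)
      by_cases hxy : c ω x = c ω y
      · exact (min_le_left _ _).trans ((hE3 ω x y hx hy).1 hxy)
      · have h1 := (hE3 ω x y hx hy).2 hxy
        have h0 : 0 ≤ E ω x y := (hE1 ω).nonneg x y
        have h2 := mul_le_mul_of_nonneg_right hC h0
        exact (min_le_right _ _).trans (by linarith)
    have hd0 : 0 ≤ d x y := by
      rcases eq_or_ne x y with rfl | hxy
      · rw [hd.self]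
      · exact (hd.pos x y hxy).le
    have hm0 : 0 ≤ min (d x y) R := le_min hd0 hR.le
    have h1 : ((univ \ (bad x ∪ bad y)).card : ℝ) * min (d x y) R ≤ C * ∑ ω, E ω x y := by
      rw [← nsmul_eq_mul, ← Finset.sum_const, Finset.mul_sum]
      refine (Finset.sum_le_sum hm).trans ?_
      exact Finset.sum_le_sum_of_subset_of_nonneg (subset_univ _) fun ω _ _ =>
        mul_nonneg hC0.le ((hE1 ω).nonneg x y)
    have h2 : κ / 2 ≤ ((univ \ (bad x ∪ bad y)).card : ℝ) := by
      have h3 : (univ \ (bad x ∪ bad y)).card + (bad x ∪ bad y).card = Fintype.card Ω := by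
        rw [Finset.card_sdiff_add_card_eq_card (subset_univ _), Finset.card_univ]
      have h4 := Finset.card_union_le (bad x) (bad y)
      have h5 : ((univ \ (bad x ∪ bad y)).card : ℝ) + ((bad x ∪ bad y).card : ℝ) = κ := by
        rw [hκ]
        exact_mod_cast h3
      have h6 : ((bad x ∪ bad y).card : ℝ) ≤ (bad x).card + (bad y).card := by
        exact_mod_cast h4
      linarith [hbad x, hbad y]
    have h3 := mul_le_mul_of_nonneg_right h2 hm0
    have h4 : min (d x y) R = 2 / κ * (κ / 2 * min (d x y) R) := by field_simp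
    rw [h4]
    have h5 := mul_le_mul_of_nonneg_left (h3.trans h1) (by positivity : 0 ≤ 2 / κ)
    have h6 : 2 / κ * (C * ∑ ω, E ω x y) = 2 * C * (1 / κ * ∑ ω, E ω x y) := by ring
    linarith

end Vale.Agent.P235.H273
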